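import Vale.Agent.P011LS.Geo

/-!
The elements of degree two, and the extremal elements which are opposite to the root element.
-/

open Matrix

namespace Vale.Agent.P011LP

open P011L P011LD P011LE P011LS

variable {K : Type} [Field K] [CharZero K]

theorem io_two (a b : Matrix (Fin 2) (Fin 2) K) :
    io (1 : GL S K) a 0 * io 1 b 0 = io 1 (a * b) 0 := by rw [io_mul, mul_one, mul_zero]

theorem io_eq {a b : Matrix (Fin 2) (Fin 2) K} (h : ∀ i j, a i j = b i j) :
    io (1 : GL S K) a 0 = io 1 b 0 := by rw [Matrix.ext h]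

theorem e0_e0 : (e0 * e0 : R K) = 0 := by
  rw [e0, io_two, ← io_zero 1]
  exact io_eq fun i j => by fin_cases i <;> fin_cases j <;> simp

theorem f0_f0 : (f0 * f0 : R K) = 0 := by
  rw [f0, io_two, ← io_zero 1]
  exact io_eq fun i j => by fin_cases i <;> fin_cases j <;> simp

theorem efe : (e0 * f0 * e0 : R K) = e0 := by
  rw [e0, f0, io_two, io_two]
  exact io_eq fun i j => by fin_cases i <;> fin_cases j <;> simp

theorem fef : (f0 * e0 * f0 : R K) = f0 := by
  rw [e0, f0, io_two, io_two]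
  exact io_eq fun i j => by fin_cases i <;> fin_cases j <;> simp

theorem h0_eq : (h0 : R K) = e0 * f0 - f0 * e0 := by
  rw [e0, f0, io_two, io_two, io_sub, sub_zero, h0]
  exact io_eq fun i j => by fin_cases i <;> fin_cases j <;> simp

theorem p0_eq : (io 1 0 1 : R K) = 1 - e0 * f0 - f0 * e0 := by
  rw [e0, f0, io_two, io_two, ← io_one, io_sub, io_sub, sub_zero, sub_zero]
  congr 1
  ext i j
  fin_cases i <;> fin_cases j <;> simp

theorem tp_e0 : tp (e0 : R K) = f0 := by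
  rw [e0, tp_io, map_one, inv_one, f0]
  exact io_eq fun i j => by fin_cases i <;> fin_cases j <;> rfl

theorem tp_f0 : tp (f0 : R K) = e0 := by rw [← tp_e0, tp_tp]

theorem lie_two {a : Matrix (Fin 2) (Fin 2) K} (h : ∀ t : K, (1 + t • a).det = 1) :
    Lie (io (1 : GL S K) a 0) := lie_of fun t y => by
  rw [io_smul, ← io_one, io_add, N_io (by simp [h]), h]
  simp

theorem lie_e0 : Lie (e0 : R K) := lie_two fun t => by simp [det_fin_two]

theorem lie_f0 : Lie (f0 : R K) := lie_two fun t => by simp [det_fin_two]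

theorem e0_gl : e0 ∈ gl K := ⟨lie_e0, tp_e0 (K := K) ▸ lie_f0⟩

theorem f0_gl : f0 ∈ gl K := ⟨lie_f0, tp_f0 (K := K) ▸ lie_e0⟩

theorem h0_gl : h0 ∈ gl K := h0_eq (K := K) ▸ gl_br e0_gl f0_gl

theorem h0_e0 : (h0 * e0 : R K) = e0 := by
  rw [h0_eq, sub_mul, efe, mul_assoc, e0_e0, mul_zero, sub_zero]

theorem e0_h0 : (e0 * h0 : R K) = -e0 := by
  rw [h0_eq, mul_sub, ← mul_assoc, ← mul_assoc, efe, e0_e0, zero_mul, zero_sub]

theorem h0_f0 : (h0 * f0 : R K) = -f0 := by
  rw [h0_eq, sub_mul, fef, mul_assoc, f0_f0, mul_zero, zero_sub]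

theorem f0_h0 : (f0 * h0 : R K) = f0 := by
  rw [h0_eq, mul_sub, ← mul_assoc, ← mul_assoc, fef, f0_f0, zero_mul, sub_zero]

theorem h0_h0 : (h0 * h0 : R K) = e0 * f0 + f0 * e0 := by
  conv_lhs => enter [2]; rw [h0_eq]
  rw [mul_sub, ← mul_assoc, ← mul_assoc, h0_e0, h0_f0, neg_mul, sub_neg_eq_add]

theorem h0_three : (h0 * h0 * h0 : R K) = h0 := by
  rw [h0_h0, add_mul, mul_assoc, mul_assoc, f0_h0, e0_h0, mul_neg, h0_eq, sub_eq_add_neg]

theorem tr_ef : tr (e0 * f0 : R K) = 6 := by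
  have e : (e0 * f0 : R K) = E (diagonal fun i : I =>
      (![![![1, 1, 1], ![0, 0, 0], ![0, 0, 0]], ![![0, 0, 0], ![0, 0, 0], ![0, 0, 0]],
        ![![0, 1, 0], ![0, 1, 0], ![0, 1, 0]]] : Fin 3 → Fin 3 → Fin 3 → K) i.1 i.2.1 i.2.2) :=
    LinearMap.ext fun y => co.injective (by
      have h1 : ((e0 * f0 : R K) y).1.1 = 0 := zero_smul _ _
      have h2 : ∀ a, ((e0 * f0 : R K) y).2 0 a = y.2 0 a ∧ ((e0 * f0 : R K) y).2 1 a = 0 :=
        fun a => by
          rw [e0, f0, io_two, io_2, Units.val_one, transpose_one, Matrix.mul_one]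
          simp [mul_apply]
      rw [co_E]
      generalize (e0 * f0 : R K) y = z at h1 h2
      funext ⟨l, i, j⟩
      rw [mulVec_diagonal]
      fin_cases l <;> fin_cases i <;> fin_cases j <;> simp [co_apply, coF, h1, h2])
  rw [e, tr_def, AlgEquiv.symm_apply_apply, trace_diagonal]
  simp [Fintype.sum_prod_type, Fin.sum_univ_three]
  norm_num

omit [CharZero K] in
theorem T_alt (A : Alt K) (y z : J K) (h : z.1.1 = 0) :
    T (jm A.1 A.2 0) y z = y.2 0 ⬝ᵥ A.1 *ᵥ z.2 1 + z.2 0 ⬝ᵥ A.1 *ᵥ y.2 1 := by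
  have e (i : Fin 2) : (0 : Matrix (Fin 2) S K) i = 0 := rfl
  simp [T_apply, T3, mx, pf3, s3, h, e]

omit [CharZero K] in
theorem T_ww (x y z : J K) (h : y.1.1 = 0) (h' : z.1.1 = 0) :
    T x y z = y.2 0 ⬝ᵥ x.1.1 *ᵥ z.2 1 + z.2 0 ⬝ᵥ x.1.1 *ᵥ y.2 1 := by
  simp [T_apply, T3, mx, pf3, s3, h, h']

theorem e0_1 (y : J K) : ((e0 : R K) y).1.1 = 0 := zero_smul _ _

theorem e0_2 (y : J K) : ((e0 : R K) y).2 0 = y.2 1 ∧ ((e0 : R K) y).2 1 = 0 := by
  rw [e0, io_2, Units.val_one, transpose_one, Matrix.mul_one]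
  constructor <;> funext a <;> simp [mul_apply]

theorem ex_g2 {y : R K} (h : Lie y) : ∃ c : K, e0 * y * e0 = c • e0 := by
  let j : (S → K) →ₗ[K] J K := ⟨⟨fun a => jm 0 (zero_mem _) (of ![a, 0]), fun a b => J_ext (by simp)
    (by ext i; fin_cases i <;> simp)⟩, fun t a => J_ext (by simp) (by ext i; fin_cases i <;> simp)⟩
  let q : J K →ₗ[K] S → K := ⟨⟨fun y => y.2 1, fun _ _ => rfl⟩, fun _ _ => rfl⟩
  obtain ⟨G, hG⟩ : ∃ G : Matrix S S K, ∀ a, G *ᵥ a = (y (j a)).2 1 :=
    ⟨LinearMap.toMatrix' (q ∘ₗ y ∘ₗ j), fun a => by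
      rw [← toLin'_apply, toLin'_toMatrix']; rfl⟩
  have j0 (a) : (j a).2 0 = a := rfl
  have j1 (a) : (j a).2 1 = 0 := rfl
  have h1 (A : Alt K) (u v : S → K) : v ⬝ᵥ A.1 *ᵥ (G *ᵥ u) + u ⬝ᵥ A.1 *ᵥ (G *ᵥ v) = 0 := by
    have := h (jm A.1 A.2 0) (j u) (j v)
    rw [T_ww _ _ _ rfl rfl, T_alt _ _ _ rfl, T_sw', T_alt _ _ _ rfl] at this
    simpa only [j0, j1, ← hG, mulVec_zero, dotProduct_zero, zero_add] using this
  have h2 (a b u v : S) : (Pi.single v 1 : S → K) a * G b u - (Pi.single v 1 : S → K) b * G a u +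
      ((Pi.single u 1 : S → K) a * G b v - (Pi.single u 1 : S → K) b * G a v) = 0 := by
    have := h1 ⟨single a b 1 - single b a 1, mem_Alt (by simp [transpose_sub])⟩ (Pi.single u 1)
      (Pi.single v 1)
    simp only [sub_mulVec, single_mulVec, dotProduct_sub, mulVec_single_one, one_mul] at this
    simpa only [Function.update, dotProduct, eq_rec_constant, dite_eq_ite, Pi.zero_apply, mul_ite,
      mul_zero, Finset.sum_ite_eq', Finset.mem_univ, if_true, col_apply] using this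
  have h3 : G = G (0, 0) (0, 0) • 1 := Matrix.ext fun a b => by
    by_cases e : a = b
    · subst e
      by_cases e' : a = (0, 0)
      · simp [e']
      · have := h2 a (0, 0) a (0, 0)
        simp only [Pi.single_eq_same, Pi.single_eq_of_ne e', Pi.single_eq_of_ne' e'] at this
        simp only [Matrix.smul_apply, one_apply_eq, smul_eq_mul]
        linear_combination -this
    · have := h2 a b b b
      simp only [Pi.single_eq_same, Pi.single_eq_of_ne e] at this
      simp only [Matrix.smul_apply, one_apply_ne e, smul_eq_mul]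
      linear_combination -this / 2
  refine ⟨G (0, 0) (0, 0), LinearMap.ext fun x => J_ext ?_ ?_⟩
  · rw [LinearMap.smul_apply, smul_1, e0_1, smul_zero]
    exact e0_1 _
  · have e : (e0 : R K) x = j (x.2 1) := J_ext (e0_1 x) (funext fun i => by
      fin_cases i
      exacts [(e0_2 x).1, (e0_2 x).2])
    funext i
    fin_cases i
    · refine (e0_2 _).1.trans ?_
      rw [e, ← hG, h3, smul_mulVec, one_mulVec, LinearMap.smul_apply, e]
      simp only [Matrix.smul_apply, one_apply_eq, smul_eq_mul, mul_one]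
      rfl
    · refine (e0_2 _).2.trans ?_
      rw [LinearMap.smul_apply, e]
      exact (smul_zero (G (0, 0) (0, 0)) : _ • (0 : S → K) = 0).symm

theorem g2' {y : R K} (h : Lie y) : e0 * y * e0 = (tr (e0 * y) / 6) • e0 := by
  obtain ⟨c, e⟩ := ex_g2 h
  have : tr (e0 * y) = c * 6 := by
    rw [← tr_ef, ← smul_eq_mul c, ← map_smul, ← smul_mul_assoc, ← e, mul_assoc _ e0, tr_comm _ (_ * _),
      ← mul_assoc, efe]
  rw [e, this, mul_div_cancel_right₀ _ (by norm_num)]

theorem g2 : G2 := fun _ _ _ _ h => g2' h.1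

theorem zero_of_l {Z : R K} {c : K} (h : h0 * Z = c • Z) (hc : c ^ 3 - c ≠ 0) : Z = 0 := by
  have : h0 * h0 * h0 * Z = h0 * Z := by rw [h0_three]
  simp only [mul_assoc, h, mul_smul_comm, smul_smul] at this
  refine (smul_eq_zero.1 ?_).resolve_left hc
  rw [sub_smul, ← this, pow_three, sub_self]

theorem zero_of_r {Z : R K} {c : K} (h : Z * h0 = c • Z) (hc : c ^ 3 - c ≠ 0) : Z = 0 := by
  have : Z * (h0 * h0 * h0) = Z * h0 := by rw [h0_three]
  simp only [← mul_assoc, h, smul_mul_assoc, smul_smul] at this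
  refine (smul_eq_zero.1 ?_).resolve_left hc
  rw [sub_smul, ← this, pow_three', sub_self]

section

variable {n : R K}

theorem dg_one (h : Dg 1 n) : h0 * n = n * h0 + n := by
  rw [← sub_eq_iff_eq_add', h, Int.cast_one, one_smul]

theorem dg_e0 (h : Dg 1 n) : n * e0 = 0 :=
  zero_of_l (c := 2) (by rw [← mul_assoc, dg_one h, add_mul, mul_assoc, h0_e0, two_smul])
    (by norm_num)

theorem e0_dg (h : Dg 1 n) : e0 * n = 0 :=
  zero_of_r (c := -2) (by
    rw [mul_assoc, eq_sub_of_add_eq (dg_one h).symm, mul_sub, ← mul_assoc, e0_h0, neg_mul]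
    module) (by norm_num)

theorem dg_three (h : Dg 1 n) : n * n * n = 0 := by
  have e : h0 * (n * n * n) = n * n * n * h0 + (3 : K) • (n * n * n) := by
    simp only [← mul_assoc, dg_one h, add_mul]
    simp only [mul_assoc n h0, dg_one h, mul_add, add_mul]
    simp only [mul_assoc _ h0, dg_one h, mul_add, mul_assoc]
    module
  have e1 : n * n * n * (f0 * e0) = 0 := zero_of_l (c := 2) (by
    rw [← mul_assoc, e, add_mul, mul_assoc _ h0, ← mul_assoc h0, h0_f0, neg_mul, mul_neg,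
      smul_mul_assoc]
    module) (by norm_num)
  have e2 : n * n * n * (e0 * f0) = 0 := by
    rw [← mul_assoc, mul_assoc _ n, dg_e0 h, mul_zero, zero_mul]
  refine zero_of_l (c := 3) ?_ (by norm_num)
  rw [e, h0_eq, mul_sub, e1, e2, sub_zero, zero_add]

theorem xp_h0 (h : Dg 1 n) : xp n h0 = h0 - n := by
  have h3 := dg_three h
  have e2 : h0 * (n * n) = n * n * h0 + (2 : K) • (n * n) := by
    rw [← mul_assoc, dg_one h, add_mul, mul_assoc, dg_one h, mul_add, mul_assoc]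
    module
  have e : h0 * ex (-n) = ex (-n) * h0 + (n * n - n) := by
    simp only [ex, mul_add, add_mul, mul_neg, neg_mul, neg_neg, mul_smul_comm, smul_mul_assoc,
      mul_one, one_mul, e2, dg_one h]
    module
  have h4 : n * (n * n) = 0 := by rw [← mul_assoc, h3]
  have h5 : n * n * (n * n) = 0 := by rw [← mul_assoc, h3, zero_mul]
  rw [xp, mul_assoc, e, mul_add, ← mul_assoc, ex_neg h3, one_mul]
  simp only [ex, add_mul, mul_sub, one_mul, smul_mul_assoc, h3, h4, h5]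
  module

theorem xp_e0 (h : Dg 1 n) : xp n e0 = e0 := by
  simp only [xp, ex, mul_add, add_mul, mul_neg, neg_mul, neg_neg, mul_smul_comm, smul_mul_assoc,
    mul_one, one_mul, mul_assoc n n, dg_e0 h, mul_zero, smul_zero, add_zero, ← mul_assoc e0,
    e0_dg h, neg_zero, zero_mul]

end

theorem sq_te (t : K) : (t • e0 : R K) * (t • e0) = 0 := by
  rw [smul_mul_smul_comm, e0_e0, smul_zero]

theorem xp_t (t : K) (X : R K) : xp (t • e0) X = (1 + t • e0) * X * (1 - t • e0) := by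
  rw [xp, ex_sq (sq_te t), ex_sq (by rw [neg_mul_neg, sq_te]), sub_eq_add_neg]

theorem xpt_h0 (t : K) : xp (t • e0) (h0 : R K) = h0 - (2 * t) • e0 := by
  simp only [xp_t, mul_sub, add_mul, one_mul, mul_one, smul_mul_assoc, mul_smul_comm, e0_h0, h0_e0,
    neg_mul, e0_e0, smul_neg]
  module

theorem xpt_e0 (t : K) : xp (t • e0) (e0 : R K) = e0 := by
  simp only [xp_t, mul_sub, add_mul, one_mul, mul_one, smul_mul_assoc, mul_smul_comm, e0_e0,
    smul_zero, add_zero, sub_zero]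

/-- An element of the Lie algebra which lives on the alternating matrices vanishes. -/
theorem zero_of_p0 {Z : R K} (h : Lie Z) (h1 : io 1 0 1 * Z = Z) (h2 : Z * io 1 0 1 = Z) :
    Z = 0 := LinearMap.ext fun x => by
  have e (w : Matrix (Fin 2) S K) : Z (jm 0 (zero_mem _) w) = 0 := by
    rw [← h2, Module.End.mul_apply, ← map_zero Z]
    exact congrArg Z (J_ext (by simp [io_1]) (by simp [io_2]))
  refine J_ext (Matrix.ext fun a b => ?_) ?_
  · have := h x (jm 0 (zero_mem _) (of ![Pi.single a 1, 0])) (jm 0 (zero_mem _)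
      (of ![0, Pi.single b 1]))
    rw [e, e, T_ww _ _ _ rfl rfl] at this
    change Pi.single a 1 ⬝ᵥ _ *ᵥ Pi.single b 1 + 0 ⬝ᵥ _ + _ + _ = 0 at this
    simpa using this
  · rw [← h1, Module.End.mul_apply, io_2]
    simp

theorem eq_f0 {y : R K} (h : Lie y) (h2 : y * y = 0) (h1 : e0 * y - y * e0 = h0) : y = f0 := by
  have a1 : h0 * y = -(y * h0) := by
    rw [← h1, sub_mul, mul_sub, mul_assoc e0, h2, ← mul_assoc y y, h2, mul_assoc y]
    simp
  have a2 : e0 * y * e0 = e0 := by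
    rw [eq_add_of_sub_eq h1, add_mul, h0_e0, mul_assoc, e0_e0, mul_zero, add_zero]
  have a3 : h0 * h0 * y = y * (h0 * h0) := by
    rw [mul_assoc, a1, mul_neg, ← mul_assoc, a1, neg_mul, neg_neg, mul_assoc]
  rw [h0_h0, add_mul, mul_add] at a3
  rw [h0_eq, sub_mul, mul_sub] at a1
  have b1 : e0 * f0 * y = y * (f0 * e0) := by
    linear_combination (norm := module) (2⁻¹ : K) • a1 + (2⁻¹ : K) • a3
  have b2 : f0 * e0 * y = y * (e0 * f0) := by
    linear_combination (norm := module) (2⁻¹ : K) • a3 - (2⁻¹ : K) • a1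
  have c1 : f0 * e0 * y = f0 := by
    calc f0 * e0 * y = f0 * e0 * (f0 * e0 * y) := by rw [← mul_assoc, ← mul_assoc, fef]
      _ = f0 * (e0 * y * e0) * f0 := by rw [b2]; simp only [mul_assoc]
      _ = f0 := by rw [a2, fef]
  have c2 : e0 * f0 * y = 0 := by
    calc e0 * f0 * y = y * (f0 * e0 * y) * e0 := by rw [b1, c1, mul_assoc]
      _ = 0 := by rw [b2, ← mul_assoc, h2, zero_mul, zero_mul]
  have := zero_of_p0 (Z := y - f0) (fun x u v => by
    simp only [LinearMap.sub_apply, map_sub]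
    linear_combination h x u v - lie_f0 x u v)
    (by rw [p0_eq, mul_sub, sub_mul, sub_mul, sub_mul, sub_mul, c1, c2, fef, mul_assoc, f0_f0]; simp)
    (by rw [p0_eq, sub_mul, mul_sub, mul_sub, mul_sub, mul_sub, ← b1, ← b2, c1, c2, ← mul_assoc,
      fef, ← mul_assoc, f0_f0]; simp)
  exact sub_eq_zero.1 this

/-- The coroot of an opposite element is conjugate to the standard one. -/
theorem ex_jm {y : R K} (hy : y ∈ gl K) (h : e0 * y * e0 = e0) :
    ∃ n ∈ gl K, ∃ t : K, Dg 1 n ∧ e0 * y - y * e0 = xp n (xp (t • e0) h0) := by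
  obtain ⟨c, hc⟩ := ex_g2 (gl_br hy f0_gl).1
  have e1 : h0 - (e0 * y - y * e0) + c • e0 = io 1 0 1 * y * e0 - e0 * y * io 1 0 1 := by
    rw [← hc, p0_eq, h0_eq]
    simp only [mul_sub, sub_mul, one_mul, mul_one, ← mul_assoc, h]
    simp only [mul_assoc f0, h]
    simp only [mul_assoc]
    abel
  have e2 : Dg 1 (h0 - (e0 * y - y * e0) + c • e0) := by
    have p1 : (h0 * io 1 0 1 : R K) = 0 := by rw [h0, io_mul, ← io_zero 1]; simp
    have p2 : (io 1 0 1 * h0 : R K) = 0 := by rw [h0, io_mul, ← io_zero 1]; simp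
    rw [e1, Dg, mul_sub, sub_mul, ← mul_assoc, ← mul_assoc, ← mul_assoc, ← mul_assoc, p1, h0_e0,
      mul_assoc _ _ h0, mul_assoc _ _ h0, p2, e0_h0]
    simp only [zero_mul, mul_zero, mul_neg, Int.cast_one, one_smul]
    abel
  refine ⟨_, add_mem (sub_mem h0_gl (gl_br e0_gl hy)) ((gl K).smul_mem c e0_gl), -c / 2, e2, ?_⟩
  have e3 (X Y : R K) (n : R K) (t : K) : xp n (X - t • Y) = xp n X - t • xp n Y := by
    simp only [xp, mul_sub, sub_mul, mul_smul_comm, smul_mul_assoc]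
  rw [xpt_h0, e3, xp_h0 e2, xp_e0 e2]
  module

theorem ep : EP := fun K _ _ y hy h2 h => by
  obtain ⟨n, hn, t, hd, e⟩ := ex_jm hy h
  refine ⟨n, hn, t, hd, ?_⟩
  have h3 : (t • e0 : R K) * (t • e0) * (t • e0) = 0 := by rw [sq_te, zero_mul]
  let u := eu n (dg_three hd) * eu _ h3
  have hu : u ∈ SX K := mul_mem (eu_mem _ hn.1) (eu_mem _ ((gl K).smul_mem t e0_gl).1)
  have eA (X : R K) : Ad u X = xp n (xp (t • e0) X) := Ad_mul _ _ _
  have e1 : Ad u⁻¹ e0 = e0 := by
    conv_lhs => rw [← xp_e0 hd, ← xpt_e0 t, ← eA, Ad_inv]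
  rw [← eA, ← eq_f0 (hy.1.Ad (inv_mem hu)) (by rw [← Ad_mul', h2, Ad_zero]) ?_, Ad_inv']
  rw [← e1, ← Ad_mul', ← Ad_mul', ← Ad_sub, e, ← eA, Ad_inv]

end Vale.Agent.P011LP
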